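import Vale.Agent.Lib.P074.Main
import Vale.Agent.Lib.P074T.Limit
import Vale.Agent.Lib.P074H.Pot

open Vale.Agent.Lib.P074

namespace Vale.Agent.Results.P074.A000_final

/-- **The stability exponent of quadratic optimal transport maps is exactly `1/3` in every dimension
`d ≥ 2`, and the supremum is attained**: `α = 1/3` is admissible, no `α > 1/3` is admissible, and the
supremum of the admissible exponents in `(0, 1]` equals `1/3`. In particular Letrouit's conjecture
that `α = 1/2` is admissible is false. -/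
theorem result :
    ∀ d : ℕ, 2 ≤ d →
      Admissible d (1 / 3) ∧
      (∀ α : ℝ, 1 / 3 < α → ¬ Admissible d α) ∧
      IsGreatest {α : ℝ | 0 < α ∧ α ≤ 1 ∧ Admissible d α} (1 / 3) ∧
      sSup {α : ℝ | 0 < α ∧ α ≤ 1 ∧ Admissible d α} = 1 / 3 ∧
      ¬ Admissible d (1 / 2) := by
  intro d hd
  have h1 : Admissible d (1 / 3) :=
    Vale.Agent.Lib.P074T.admissible_third_of_pot (A := 808) (by omega) (by norm_num)
      (fun _ _ _ _ hK hconv hint _ hRK _ _ hinj hinj' _ _ _ _ hm hm' hsel hsel' _ hmpos hsum hmass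
        hmass' => Vale.Agent.Lib.P074H.finite_pot hK hconv hint hRK hinj hinj' hm hm' hsel hsel'
          hmpos hsum hmass hmass')
  obtain ⟨h2, -, -⟩ := main d hd
  have hG : IsGreatest {α : ℝ | 0 < α ∧ α ≤ 1 ∧ Admissible d α} (1 / 3) := by
    refine ⟨⟨by norm_num, by norm_num, h1⟩, ?_⟩
    intro α hα
    by_contra hlt
    exact h2 α (not_le.mp hlt) hα.2.2
  exact ⟨h1, h2, hG, hG.csSup_eq, h2 _ (by norm_num)⟩

end Vale.Agent.Results.P074.A000_final
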